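import Crest.Agent.X212.Gl67.Jet
import Crest.Agent.X212.Gls64.Mod
import Crest.Agent.X212.Gr93.Row
import Crest.Agent.X212.Pb50.Rep
import Crest.Agent.X212.Cut71.Lit
import Crest.Agent.X212.Cut71.Hf

-- ▼ part X212/Gl50/Loc
section

/-!
# Row 212, GL-S (helper50): local norms, cutting with functions of a height
-/

set_option autoImplicit false
set_option linter.unusedSectionVars false
noncomputable section
open scoped Manifold ContDiff Topology InnerProductSpace ENNReal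
open MeasureTheory Set Function Filter

namespace Crest.Agent.X212.Gl50
open An Sob92 Prm93 Gl67 Pb50
open Gls64 (Hg)
open M (Mf)
open Neck67 (dn up cS)

variable {X X₁ : Mf 4} {ι α : Type} [Fintype ι] {F F' : Pre X.I X.M ι} {F₁ : Pre X₁.I X₁.M ι}
  {V : Type} [NormedAddCommGroup V] [NormedSpace ℝ V]
  {W : Type} [NormedAddCommGroup W] [InnerProductSpace ℝ W]
  {k : ℕ} {u : X.M → V} {x : X.M} {A O : Set X.M} {g : X.M → ℝ} {l : Filter α}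

/-- the squared norm over `A` -/
abbrev Nz (F : Pre X.I X.M ι) (A : Set X.M) (k : ℕ) (u : X.M → V) : ℝ≥0∞ := N F 0 A k u

theorem Nz_def : Nz F A k u = ∫⁻ x in A, ENNReal.ofReal (J F k u x) ∂F.μ := by simp [N]

theorem enorm_sq (v : V) : ‖v‖ₑ ^ 2 = ENNReal.ofReal (‖v‖ ^ 2) := by
  rw [← ofReal_norm, ENNReal.ofReal_pow (norm_nonneg _)]

theorem J_D (a : ι) : J F k (F.D a u) x ≤ J F (k + 1) u x :=
  (Finset.single_le_sum (f := fun a => J F k (F.D a u) x) (fun _ _ => J_nonneg k _)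
    (Finset.mem_univ a)).trans (le_add_of_nonneg_left (sq_nonneg _))

theorem word_le_J : ∀ (w : List ι) {k : ℕ} {u : X.M → V}, w.length ≤ k →
    ‖F.Dw w u x‖ ^ 2 ≤ J F k u x
  | [], 0, _, _ => le_rfl
  | [], _ + 1, _, _ => le_add_of_nonneg_right (Finset.sum_nonneg fun _ _ => J_nonneg _ _)
  | a :: w, _ + 1, _, h => (word_le_J w (Nat.le_of_succ_le_succ h)).trans (J_D a)

theorem word_le {w : List ι} (h : w.length ≤ k) :
    ∫⁻ x in A, ‖F.Dw w u x‖ₑ ^ 2 ∂F.μ ≤ Nz F A k u := by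
  rw [Nz_def]
  exact lintegral_mono fun x => (enorm_sq _).trans_le (ENNReal.ofReal_le_ofReal (word_le_J w h))

theorem aem_J (hA : MeasurableSet A) (hu : SmO X.I A u) (k : ℕ) :
    AEMeasurable (fun x => ENNReal.ofReal (J F k u x)) (F.μ.restrict A) :=
  (ContinuousOn.aemeasurable (fun x hx => (J_cont k hu x hx).continuousWithinAt) hA).ennreal_ofReal

theorem Nz_succ (hA : MeasurableSet A) (hu : SmO X.I A u) :
    Nz F A (k + 1) u = Nz F A 0 u + ∑ a, Nz F A k (F.D a u) := by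
  simp only [Nz_def]
  rw [← lintegral_finsetSum' _ fun a _ => aem_J hA (hu.D a) k, ← lintegral_add_left' (aem_J hA hu 0)]
  refine lintegral_congr fun x => ?_
  rw [← ENNReal.ofReal_sum_of_nonneg fun _ _ => J_nonneg k _,
    ← ENNReal.ofReal_add (J_nonneg 0 _) (Finset.sum_nonneg fun _ _ => J_nonneg k _)]
  rfl

theorem Nz_tendsto {A : α → Set X.M} (k : ℕ) : ∀ {u : α → X.M → V},
    (∀ᶠ i in l, MeasurableSet (A i) ∧ SmO X.I (A i) (u i)) → (∀ w : List ι, w.length ≤ k →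
      Tendsto (fun i => ∫⁻ x in A i, ‖F.Dw w (u i) x‖ₑ ^ 2 ∂F.μ) l (𝓝 0)) →
    Tendsto (fun i => Nz F (A i) k (u i)) l (𝓝 0) := by
  have h0 : ∀ {u : α → X.M → V}, Tendsto (fun i => ∫⁻ x in A i, ‖F.Dw [] (u i) x‖ₑ ^ 2 ∂F.μ) l (𝓝 0) →
      Tendsto (fun i => Nz F (A i) 0 (u i)) l (𝓝 0) := fun h =>
    h.congr fun i => by simp only [Nz_def, enorm_sq]; rfl
  induction k with
  | zero => exact fun _ h => h0 (h [] le_rfl)
  | succ k ih =>
    intro u hu h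
    have := (h0 (h [] (by simp))).add (tendsto_finsetSum Finset.univ fun a _ =>
      ih (u := fun i => F.D a (u i)) (hu.mono fun i hi => ⟨hi.1, hi.2.D a⟩)
        fun w hw => h (a :: w) (Nat.succ_le_succ hw))
    rw [Finset.sum_const_zero, add_zero] at this
    exact this.congr' (hu.mono fun i hi => (Nz_succ hi.1 hi.2).symm)

theorem Nz_univ (hu : FL F k u) : Nz F univ k u = ENNReal.ofReal (N2 F k u) := by
  obtain ⟨h1, h2⟩ := J_int (F := F) k hu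
  rw [N2, ← h2, ofReal_integral_eq_lintegral_ofReal h1 (.of_forall fun _ => J_nonneg k u), Nz_def,
    Measure.restrict_univ]

theorem FL_of_Nz (k : ℕ) : ∀ {u : X.M → V}, Sm X.I u → Nz F univ k u ≠ ⊤ → FL F k u := by
  have h0 : ∀ {k} {u : X.M → V}, Sm X.I u → Nz F univ k u ≠ ⊤ → MemLp u 2 F.μ := fun hu h => by
    refine (memLp_two_iff_integrable_sq_norm hu.continuous.aestronglyMeasurable).2
      ⟨(hu.continuous.norm.pow 2).aestronglyMeasurable, ?_⟩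
    have := (word_le (w := []) (Nat.zero_le _)).trans_lt h.lt_top
    rw [Measure.restrict_univ] at this
    simpa [HasFiniteIntegral, Pre.Dw] using this
  induction k with
  | zero => exact h0
  | succ k ih =>
    exact fun hu h => ⟨h0 hu h, fun a => ih (F.sm_D hu a) (ne_top_of_le_ne_top h (by
      simp only [Nz_def]
      exact lintegral_mono fun x => ENNReal.ofReal_le_ofReal (J_D a)))⟩

theorem hi_iff : Hi F u ↔ Sm X.I u ∧ ∀ k, Nz F univ k u ≠ ⊤ := and_congr_right fun hu =>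
  forall_congr' fun k => ⟨fun h => Nz_univ h ▸ ENNReal.ofReal_ne_top, FL_of_Nz k hu⟩

theorem nrm_iff {u : α → X.M → W} (hu : ∀ᶠ i in l, Hi F (u i)) :
    Tendsto (fun i => F.nrm k (u i)) l (𝓝 0) ↔ Tendsto (fun i => Nz F univ k (u i)) l (𝓝 0) := by
  refine ⟨fun h => ?_, fun h => ?_⟩
  · have := ENNReal.tendsto_ofReal (h.pow 2)
    rw [zero_pow two_ne_zero, ENNReal.ofReal_zero] at this
    exact this.congr' (hu.mono fun i hi => by simp only [Nz_univ (hi.2 k), nrm_sq])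
  · have := ((ENNReal.tendsto_toReal ENNReal.zero_ne_top).comp h).sqrt
    rw [ENNReal.toReal_zero, Real.sqrt_zero] at this
    exact this.congr' (hu.mono fun i hi => by
      simp only [comp, Nz_univ (hi.2 k), nrm_eq, ENNReal.toReal_ofReal (n2_nonneg _ _)])

theorem J_frame : ∀ (k : ℕ) {u v : X.M → V}, (∀ᶠ y in 𝓝 x, ∀ a, F.e a y = F'.e a y) → u =ᶠ[𝓝 x] v →
    J F k u x = J F' k v x
  | 0, _, _, _, h => by simp only [J, h.self_of_nhds]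
  | k + 1, _, _, e, h => congrArg₂ (· + ·) (by rw [h.self_of_nhds]) (Finset.sum_congr rfl fun a _ =>
      J_frame k e ((e.and h.eventuallyEq_nhds).mono fun y hy => by
        rw [Pre.D_def, dv_congr hy.2, Pre.D_def, dv, dv, hy.1 a]))

theorem Nz_frame {v : X.M → V} (hA : IsOpen A) (e : ∀ y ∈ A, ∀ a, F.e a y = F'.e a y)
    (hμ : F.μ.restrict A = F'.μ.restrict A) (h : EqOn u v A) : Nz F A k u = Nz F' A k v := by
  rw [Nz_def, Nz_def, hμ]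
  exact setLIntegral_congr_fun hA.measurableSet fun x hx => congrArg _ (J_frame k
    ((hA.eventually_mem hx).mono e) (h.eventuallyEq_of_mem (hA.mem_nhds hx)))

theorem Hi.sum {β : Type} (s : Finset β) {f : β → X.M → V} (h : ∀ b, Hi F (f b)) :
    Hi F fun x => ∑ b ∈ s, f b x := by
  rw [← Finset.sum_fn]
  exact Finset.sum_induction _ _ (fun _ _ => Hi.add) Hi.zero fun a _ => h a

theorem Hi.smul {f : X.M → ℝ} (hf : F.Cb f) (h : Hi F u) : Hi F fun x => f x • u x :=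
  h.bil (ContinuousLinearMap.lsmul ℝ ℝ) hf

theorem Hi.sub {v : X.M → V} (h : Hi F u) (h' : Hi F v) : Hi F (u - v) := by
  rw [sub_eq_add_neg]
  exact h.add (h'.clm (-ContinuousLinearMap.id ℝ V))

theorem Hi.dom (h : Dom F F') (hu : Hi F u) : Hi F' u := by
  obtain ⟨⟨B, h1, h2⟩, c, hc⟩ := h
  refine ⟨hu.1, fun k => ?_⟩
  have h0 : ∀ {u : X.M → V}, Hi F u → MemLp u 2 F'.μ := fun hu =>
    (MemLp.smul_measure (hu.2 0) (c := c) ENNReal.coe_ne_top).mono_measure hc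
  induction k generalizing u with
  | zero => exact h0 hu
  | succ k ih =>
    refine ⟨h0 hu, fun a => ih (u := F'.D a u) ?_⟩
    rw [h1.D]
    exact Hi.sum _ fun b => Hi.smul (h2 a b) (hu.D b)

theorem hg_cmp (h : Cmp F F') (hg : Hg F g) : Hg F' g := ⟨hg.sm, fun a => by
  obtain ⟨B, h1, h2⟩ := h.1.1
  rw [← h.Cb_iff, h1.D]
  exact Cb_sum _ fun b _ => Cb_smul (h2 a b) (hg.cb b)⟩

theorem sm_cut (hg : Sm X.I g) {q a : ℝ} (h : q < a) (hu : SmO X.I {x | g x < a} u) :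
    Sm X.I fun x => dn q 1 (g x) • u x := fun x => by
  by_cases hx : g x < a
  · exact (Gls64.sm_comp hg (Neck67.sm_dn le_rfl q).cd x).smul (hu x hx)
  · refine (contMDiffAt_const (c := (0 : V))).congr_of_eventuallyEq ?_
    filter_upwards [(isOpen_lt continuous_const hg.continuous).mem_nhds
      (show q < g x by linarith)] with y hy
    rw [Neck67.dn_zero one_pos (le_of_lt hy), zero_smul]

theorem Nz_mul (hg : Hg F g) (k : ℕ) : ∃ C ≠ (⊤ : ℝ≥0∞), ∀ b, ContDiff ℝ ∞ b →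
    Neck67.Bd (k + 1) b (cS k) → ∀ B : Set ℝ, IsClosed B → (∀ t ∉ B, b t = 0) → ∀ u : X.M → V,
      Sm X.I u → Nz F univ k (fun x => b (g x) • u x) ≤ C * Nz F (g ⁻¹' B) k u := by
  obtain ⟨C, -, hC⟩ := hg.cb_comp k
  refine ⟨ENNReal.ofReal ((2 * Fintype.card ι + 3) ^ k * (C * cS k) ^ 2), ENNReal.ofReal_ne_top,
    fun b hb h B hB h0 u hu => ?_⟩
  have c := hB.preimage hg.sm.continuous
  rw [Nz, N_supp (A := g ⁻¹' B) (closure_minimal (fun x hx => by_contra fun k =>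
    hx (by simp only [h0 _ k, zero_smul])) c)]
  exact N_smul c.measurableSet (Gls64.sm_comp hg.sm hb) (hC _ _ hb h.of_succ) hu

/-- cutting off the far part -/
theorem Nz_cut (hg : Hg F g) (k : ℕ) : ∃ C ≠ (⊤ : ℝ≥0∞), ∀ q a (u : X.M → V), q + 2 < a →
    SmO X.I {x | g x < a} u →
      Nz F univ k (fun x => dn q 1 (g x) • u x) ≤ C * Nz F {x | g x ≤ q} k u := by
  obtain ⟨C, h1, h2⟩ := Nz_mul (V := V) hg k
  refine ⟨C, h1, fun q a u h hu => ?_⟩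
  have h0 : ∀ t ∉ Iic q, dn q 1 t = 0 := fun t ht => Neck67.dn_zero one_pos (not_le.1 ht).le
  have := h2 _ (Neck67.sm_dn le_rfl q).cd (Neck67.bd_dn k le_rfl q) _ isClosed_Iic h0 _
    (sm_cut hg.sm h hu)
  refine (le_of_eq (congrArg _ (funext fun x => ?_))).trans (this.trans_eq (congrArg _ (N_congr
    (isClosed_Iic.preimage hg.sm.continuous).measurableSet fun x hx => ?_)))
  · by_cases hx : g x ≤ q
    · rw [Neck67.dn_one (q := q + 2) one_pos (by linarith), one_smul]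
    · rw [h0 _ hx, zero_smul, zero_smul]
  · filter_upwards [(isOpen_lt hg.sm.continuous continuous_const).mem_nhds
      (show g x < q + 1 by linarith [show g x ≤ q from hx])] with y hy
    rw [Neck67.dn_one one_pos (by linarith [show g y < q + 1 from hy]), one_smul]

/-- the tails -/
theorem Nz_tail (hg : Hg F g) (hu : Hi F u) (k : ℕ) :
    Tendsto (fun p => Nz F univ k fun x => up p 1 (g x) • u x) atTop (𝓝 0) := by
  obtain ⟨C, h1, h2⟩ := Nz_mul (V := V) hg k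
  have m : ∀ p, MeasurableSet (g ⁻¹' Ici p) := fun p =>
    (isClosed_Ici.preimage hg.sm.continuous).measurableSet
  have h3 := tendsto_measure_iInter_atTop (s := fun p => g ⁻¹' Ici p)
    (μ := F.μ.withDensity fun x => ENNReal.ofReal (J F k u x)) (fun p => (m p).nullMeasurableSet)
    (fun _ _ h => preimage_mono (Ici_subset_Ici.2 h)) ⟨0, by
      rw [withDensity_apply _ (m 0), ← Nz_def]
      exact ne_top_of_le_ne_top ((hi_iff.1 hu).2 k) (N_mono (subset_univ _))⟩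
  rw [show ⋂ p, g ⁻¹' Ici p = ∅ from eq_empty_of_forall_notMem fun x hx => by
    linarith [show g x + 1 ≤ g x from mem_iInter.1 hx _], measure_empty] at h3
  have h4 := ENNReal.Tendsto.const_mul (a := C) h3 (.inr h1)
  rw [mul_zero] at h4
  refine tendsto_of_tendsto_of_tendsto_of_le_of_le tendsto_const_nhds h4 (fun _ => zero_le)
    fun p => (h2 _ (Neck67.sm_up le_rfl p).cd (Neck67.bd_up k le_rfl p) _ isClosed_Ici
      (fun t ht => Neck67.up_zero one_pos (not_le.1 ht).le) _ hu.1).trans_eq ?_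
  simp only [comp, withDensity_apply _ (m p), Nz_def]

/-- transport of the part below the height `q` -/
theorem hi_pull {φ : OpenPartialHomeomorph X₁.M X.M} (h : Iso F₁ F φ) {g : X₁.M → ℝ} (hg : Hg F₁ g)
    {q a : ℝ} (hs : {x | g x < a} ⊆ φ.source) (hq : q + 2 < a) (hu : Hi F u) :
    Hi F₁ fun x => dn q 1 (g x) • u (φ x) := by
  have s1 : SmO X₁.I {x | g x < a} (u ∘ φ) := fun x hx => SmO.comp h hu.1 x (hs hx)
  refine hi_iff.2 ⟨sm_cut hg.sm (by linarith) s1, fun k => ?_⟩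
  obtain ⟨C, h1, h2⟩ := Nz_cut (V := V) hg k
  refine ne_top_of_le_ne_top (ENNReal.mul_ne_top h1 ((hi_iff.1 hu).2 k))
    ((h2 q a _ hq s1).trans (mul_le_mul_right ((N_mono fun x hx => hs (show g x < a by
      linarith [show g x ≤ q from hx])).trans ((N_iso h continuous_zero φ.open_source.measurableSet
      φ.open_target.measurableSet Subset.rfl Subset.rfl (fun x hx => iff_of_true hx (φ.map_source hx))
      (fun _ _ => rfl) hu.1).trans_le (N_mono (subset_univ _)))) _))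

end Crest.Agent.X212.Gl50
end
end

-- ▼ part X212/Gl50/Cp
section

/-!
# Row 212, GL-S (helper50): GL-NR, GL-CP; the symmetry of the format
-/

set_option autoImplicit false
set_option linter.unusedSectionVars false
noncomputable section
open scoped Manifold ContDiff Topology InnerProductSpace ENNReal
open MeasureTheory Set Function Filter

namespace Crest.Agent.X212.Gl50
open An Sob92 Prm93 Gl67 Pb50 Sw Cyf70 Gls64
open M (Mf)
open Neck67 (dn up cS)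

variable {κ lam ν : Type} [Fintype κ] [Fintype lam] [Fintype ν] [DecidableEq ν]
  {d : Dt κ lam ν} {N : Type} [Fintype N] {ty : N → d.𝓔} {X X₁ X₂ : Mf 4}
  {nc nr n₁ r₁ n₂ r₂ k : ℕ}
  {T T₁ T₂ : Type} [NormedAddCommGroup T] [NormedSpace ℝ T] [FiniteDimensional ℝ T]
  [NormedAddCommGroup T₁] [NormedSpace ℝ T₁] [FiniteDimensional ℝ T₁]
  [NormedAddCommGroup T₂] [NormedSpace ℝ T₂] [FiniteDimensional ℝ T₂]
  {s : Pz X 0 fun i => d.e (ty i)} {s₁ : Pz X₁ 0 fun i => d.e (ty i)}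
  {s₂ : Pz X₂ 0 fun i => d.e (ty i)} {σ : Cel s nc nr T} {σ₁ : Cel s₁ n₁ r₁ T₁}
  {σ₂ : Cel s₂ n₂ r₂ T₂} {α : Type} {l : Filter α}
  {V : Type} [NormedAddCommGroup V] [NormedSpace ℝ V]

theorem sa_toLp {β : Type} [Fintype β] {f : β → X.M → ℝ} {x : X.M}
    (h : ∀ s, Wz78.SA X.I (f s) x) :
    Wz78.SA X.I (fun y => (WithLp.toLp 2 fun s => f s y : Fm β ℝ)) x :=
  Wz78.SA.clm (PiLp.continuousLinearEquiv 2 ℝ fun _ : β => ℝ).symm.toContinuousLinearMap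
    (contMDiffAt_pi_space.2 h)

theorem ev_choice {β : Type} (b : β) {p : α → β → Prop} (h : ∀ᶠ i in l, ∃ y, p i y) :
    ∃ f : α → β, ∀ᶠ i in l, p i (f i) := by
  classical
  exact ⟨fun i => if k : ∃ y, p i y then k.choose else b, h.mono fun i k => by
    simp only [dif_pos k, k.choose_spec]⟩

/-! ### one cell -/

section cel
variable (h : σ.toFam.OK)
include h

theorem S_al_at {t : T} (ht : t ∈ σ.Q) {c : Cfg X.M κ ν} {x : X.M}
    (hc : ∀ i, ∑ j, s.bg.B.P i j x * c.a j x = c.a i x) (i : Option κ) :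
    ∑ a, σ.S t x i a * σ.al t c x a = c.a i x :=
  S_al (c := ⟨fun a y => ∑ j, s.bg.B.P a j y * c.a j x, c.Φ⟩) h ht (fun i y => by
    simp only [Finset.mul_sum, ← mul_assoc]
    rw [Finset.sum_comm]
    exact Finset.sum_congr rfl fun j _ => by
      rw [← Finset.sum_mul, (h.site.bg.B.pr y).idem]) i x |>.trans (hc i) |> fun e => by
    simpa only [Fam.al, hc] using e

theorem pa_pnt (y : σ.Pnt) (i : Option κ) (x : X.M) :
    ∑ j, s.bg.B.P i j x * y.1.2.a j x = y.1.2.a i x := ((as_fam h y.2.1 _ _).1 y.2.2).2 i x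

variable (hβ : s.Cr σ.β)
include hβ

theorem hi_al (y y' : σ.Pnt) : Hi s.bg.F.toPre (σ.al y.1.1 y.1.2 - σ.al y'.1.1 y'.1.2) := by
  have hT := h.site.bg.tame.choose_spec
  have := Hi.sub ((hs_iff hT).1 (hs_a h hβ y)).1 ((hs_iff hT).1 (hs_a h hβ y')).1
  refine (congrArg (Hi _) (funext fun x => ?_)).mp this
  exact sub_sub_sub_cancel_right _ _ _

theorem hi_Φ (y y' : σ.Pnt) : Hi s.bg.F.toPre (y.1.2.Φ - y'.1.2.Φ) := by
  have hT := h.site.bg.tame.choose_spec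
  have := Hi.sub ((hs_iff hT).1 (hs_Φ h hβ y)).1 ((hs_iff hT).1 (hs_Φ h hβ y')).1
  rwa [sub_sub_sub_cancel_right] at this

/-- perturbation of a point -/
theorem exists_add {t : T} (ht : t ∈ σ.Q) (y₀ : σ.Pnt) {a : X.M → Fm (Option κ) ℝ} {φ : X.M → Eu ν}
    (ha : Hi s.bg.F.toPre a) (hφ : Hi s.bg.F.toPre φ) (pa : ∀ x, s.bg.p1 x (a x) = a x)
    (pφ : ∀ x, s.bg.pp x (φ x) = φ x) : ∃ y : σ.Pnt, y.1.1 = t ∧
      σ.al t y.1.2 = σ.al y₀.1.1 y₀.1.2 + a ∧ y.1.2.Φ = y₀.1.2.Φ + φ := by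
  have hT := h.site.bg.tame.choose_spec
  obtain ⟨a1, a2⟩ := (hs_iff hT).1 (hs_a h hβ y₀)
  obtain ⟨b1, b2⟩ := (hs_iff hT).1 (hs_Φ h hβ y₀)
  have a3 := (hs_iff hT).2 ⟨a1.add ha, fun x => by rw [Pi.add_apply, map_add, a2, pa]⟩
  have b3 := (hs_iff hT).2 ⟨b1.add hφ, fun x => by rw [Pi.add_apply, map_add, b2, pφ]⟩
  obtain ⟨y, hy⟩ := exists_pt h hβ ht a3 b3
  obtain rfl : y.1.1 = t := congrArg (·.2.2) (hy 3)
  have e1 := val_a h hβ le_rfl y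
  have e2 := val_Φ h hβ le_rfl y
  rw [hy, Mod61.val_ofV a3 le_rfl] at e1
  rw [hy, Mod61.val_ofV b3 le_rfl] at e2
  refine ⟨y, rfl, funext fun x => ?_, by rw [← sub_add_cancel y.1.2.Φ (s.base σ.β).Φ, ← e2]; abel⟩
  rw [eq_add_of_sub_eq (congrFun e1 x).symm, Pi.add_apply, Pi.add_apply]
  abel

theorem dk_iff {y : α → σ.Pnt} {x : σ.Pnt} : Tendsto (fun i => σ.dk k (y i) x) l (𝓝 0) ↔
    Tendsto (fun i => Nz s.bg.F.toPre univ k (σ.al (y i).1.1 (y i).1.2 - σ.al x.1.1 x.1.2)) l (𝓝 0) ∧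
    Tendsto (fun i => Nz s.bg.F.toPre univ k ((y i).1.2.Φ - x.1.2.Φ)) l (𝓝 0) ∧
    Tendsto (fun i => (y i).1.1) l (𝓝 x.1.1) := by
  rw [← nrm_iff (.of_forall fun i => hi_al h hβ (y i) x),
    ← nrm_iff (.of_forall fun i => hi_Φ h hβ (y i) x), tendsto_iff_norm_sub_tendsto_zero (b := x.1.1)]
  refine ⟨fun e => ⟨?_, ?_, ?_⟩, fun e => by
    simpa [Cel.dk] using (e.1.add e.2.1).add e.2.2⟩ <;>
    refine squeeze_zero (fun _ => by first | exact nrm_nonneg _ _ | exact norm_nonneg _)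
      (fun i => ?_) e <;> rw [Cel.dk] <;>
    linarith [nrm_nonneg (F := s.bg.F.toPre) k (σ.al (y i).1.1 (y i).1.2 - σ.al x.1.1 x.1.2),
      nrm_nonneg (F := s.bg.F.toPre) k ((y i).1.2.Φ - x.1.2.Φ), norm_nonneg ((y i).1.1 - x.1.1)]

end cel

/-! ### symmetry -/

variable {S : Sp X X₁ X₂ nc n₁ n₂ T T₁ T₂} {x : σ₁.Pnt} {z : σ₂.Pnt} {xx : ℝ × ℝ → σ₁.Pnt}
  {zz : ℝ × ℝ → σ₂.Pnt} {cc : ℝ × ℝ → σ.Pnt} {δ : α → ℝ × ℝ} {y : α → σ.Pnt} {t₁ : α → T₁}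
  {t₂ : α → T₂}

theorem swap_lg : S.swap.lg = S.lg := rfl

theorem swap_θ (δ : ℝ × ℝ) (t₁ : T₁) (t₂ : T₂) : S.swap.θ δ (t₂, t₁) = S.θ δ (t₁, t₂) := rfl

theorem geo_swap (h : S.Geo σ σ₁ σ₂) : S.swap.Geo σ σ₂ σ₁ :=
  ⟨h.ok, h.ok₂, h.ok₁, h.ht.mono fun δ ⟨g, h1, h2⟩ => ⟨_, h2, by
      simpa only [Sp.swap, sub_sub_cancel] using h1⟩,
    fun J => (h.mt J).mono fun _ k => ⟨k.2.1, k.1, k.2.2.mono fun _ k t₂ h2 t₁ h1 =>
      ⟨(k t₁ h1 t₂ h2).1, (k t₁ h1 t₂ h2).2.2, (k t₁ h1 t₂ h2).2.1⟩⟩⟩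

theorem agr_swap {δ : ℝ × ℝ} {a : ℝ} {y : σ.Pnt} {y₁ : σ₁.Pnt} {y₂ : σ₂.Pnt}
    (h : S.Agr δ a y y₁ y₂) : S.swap.Agr δ a y y₂ y₁ := ⟨h.1, h.2.2, h.2.1⟩

theorem pre_swap (h : S.Pre x z xx zz cc) : S.swap.Pre z x zz xx cc :=
  ⟨h.ag.mono fun _ k => ⟨k.2.1, k.1, agr_swap k.2.2⟩, h.cz, h.cx⟩

theorem nr_swap (h : S.Nr k l δ y t₁ t₂ x z) : S.swap.Nr k l δ y t₂ t₁ z x :=
  ⟨h.t, h.l₂, h.l₁, h.c₂, h.c₁⟩

theorem nr_swap_iff : S.swap.Nr k l δ y t₂ t₁ z x ↔ S.Nr k l δ y t₁ t₂ x z :=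
  ⟨fun h => ⟨h.t, h.l₂, h.l₁, h.c₂, h.c₁⟩, nr_swap⟩

theorem deg_swap_iff : S.swap.Deg l y z x ↔ S.Deg l y x z :=
  ⟨fun ⟨y', _, _, δ, h1, h2, h3⟩ => ⟨y', _, _, δ, h1, h2, fun k => nr_swap_iff.1 (h3 k)⟩,
    fun ⟨y', _, _, δ, h1, h2, h3⟩ => ⟨y', _, _, δ, h1, h2, fun k => nr_swap (h3 k)⟩⟩

/-! ### GL-NR -/

theorem al_ag {φ : X₁.M → X.M} {O : Set X₁.M} {c : Cfg X.M κ ν} {c' : Cfg X₁.M κ ν}
    (h : Ag φ O c c') (t : T₁) : EqOn (σ₁.al t (c.pb φ)) (σ₁.al t c') O := fun p hp => by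
  simp only [Fam.al, Cfg.pb, (h p hp).1]

theorem nr_half (h : σ₁.OK) {g : X₁.M → ℝ} (hg : Continuous g) {φ : α → X₁.M → X.M} {r : α → ℝ}
    {y₁ : α → σ₁.Pnt} (hy : Tendsto (fun i => σ₁.dk k (y₁ i) x) l (𝓝 0))
    (ha : ∀ᶠ i in l, ∃ a > r i, Ag (φ i) {p | g p < a} (y i).1.2 (y₁ i).1.2)
    (w : List (Option κ)) (hw : w.length ≤ k) : Tendsto (fun i =>
      dO σ₁ {p | g p ≤ r i} (y₁ i).1.1 ((y i).1.2.pb (φ i)) x w) l (𝓝 0) := by
  have hβ := cr_of_gd h.gd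
  obtain ⟨h1, h2, -⟩ := (dk_iff h.toOK hβ).1 hy
  refine tendsto_of_tendsto_of_tendsto_of_le_of_le' tendsto_const_nhds (by simpa using h1.add h2)
    (.of_forall fun _ => zero_le) (ha.mono fun i ⟨a, h3, h4⟩ => ?_)
  have o := isOpen_lt hg (continuous_const (y := a))
  refine le_trans ?_ (add_le_add (word_le hw) (word_le hw))
  rw [← lintegral_add_left ((sm_Dw (hi_al h.toOK hβ _ _).1 w).continuous.measurable.enorm.pow_const 2)]
  refine le_trans (le_of_eq (setLIntegral_congr_fun (isClosed_le hg continuous_const).measurableSet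
    fun p hp => ?_)) (lintegral_mono_set (subset_univ _))
  have m := o.mem_nhds (show p ∈ {p | g p < a} from lt_of_le_of_lt hp h3)
  exact congrArg₂ (‖·‖ₑ ^ 2 + ‖·‖ₑ ^ 2)
    (Prm93.Dw_congr w (((al_ag h4 _).eventuallyEq_of_mem m).sub .rfl))
    (Prm93.Dw_congr w (EventuallyEq.sub (mem_of_superset m fun q hq => (h4 q hq).2) .rfl))

variable (d ty X X₁ X₂ nc nr n₁ r₁ n₂ r₂ T T₁ T₂) in
/-- **GL-NR** -/
theorem nrStmt : NrStmt d ty X X₁ X₂ nc nr n₁ r₁ n₂ r₂ T T₁ T₂ :=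
  fun _ _ _ _ _ _ _ _ _ _ _ _ h _ _ _ _ _ _ _ _ h1 h2 h3 =>
    ⟨h3.mono fun _ ⟨_, _, k⟩ => k.1, ((dk_iff h.ok₁.toOK (cr_of_gd h.ok₁.gd)).1 h1).2.2,
      ((dk_iff h.ok₂.toOK (cr_of_gd h.ok₂.gd)).1 h2).2.2,
      nr_half h.ok₁ h.hg.1.sm.continuous h1 (h3.mono fun _ ⟨a, k, k'⟩ => ⟨a, k, k'.2.1⟩),
      nr_half h.ok₂ h.hg.2.sm.continuous h2 (h3.mono fun _ ⟨a, k, k'⟩ => ⟨a, k, k'.2.2⟩)⟩

/-! ### GL-CP -/

theorem ht_iff {φ : OpenPartialHomeomorph X₁.M X.M} {g₁ : X₁.M → ℝ} {g : X.M → ℝ} {A : ℝ}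
    (H : Ht φ g₁ g A) {p : X₁.M} (hp : p ∈ φ.source) (k : g₁ p < A ∨ g (φ p) < A) :
    g (φ p) = g₁ p := by
  have := H.ht p hp
  rcases k with k | k <;> rw [min_eq_left k.le] at this
  · exact ((min_eq_iff.1 this).resolve_right fun e => k.ne' e.1).1
  · exact ((min_eq_iff.1 this.symm).resolve_right fun e => k.ne' e.1).1.symm

section half
variable {φ : OpenPartialHomeomorph X₁.M X.M} {g₁ : X₁.M → ℝ} {g : X.M → ℝ} {A q : ℝ} {t₁ : T₁}
  {y c : σ.Pnt} {x' : σ₁.Pnt} (h₁ : σ₁.toFam.OK) (ht : t₁ ∈ σ₁.Q)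
  (L : (σ₁.P t₁).bg.Lit (σ.P y.1.1).bg φ)
include h₁ ht L

theorem la_pb {p : X₁.M} (hp : p ∈ φ.source) : LA (σ₁.P t₁).bg (y.1.2.pb φ) p :=
  Cut71.la_φ L hp (.of_forall (Cut71.At.pb _ _)) (.of_adm y.2.2.1 _)

theorem pa_pb {p : X₁.M} (hp : p ∈ φ.source) (i : Option κ) :
    ∑ j, s₁.bg.B.P i j p * y.1.2.a j (φ p) = y.1.2.a i (φ p) :=
  h₁.B t₁ ht ▸ (la_pb h₁ ht L hp).pa i

theorem smo_a : SmO X₁.I φ.source (σ₁.al t₁ (y.1.2.pb φ)) := fun p hp =>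
  sa_toLp fun a => Wz78.SA.sum _ fun j _ => Wz78.SA.mul
    (((h₁.sSi a j).cb _ ht).choose_spec.1 p) ((la_pb h₁ ht L hp).sa j)

theorem strip0 {J : Finset d.W} {a₀ u v : ℝ} (hF : Face σ₁ g₁ J a₀) (H : Ht φ g₁ g A)
    (hu : a₀ - 3 ≤ u) (hv : v ≤ A) {f₁ : X₁.M → V} {f : X.M → V} (hf : Sm X.I f)
    (e : EqOn f₁ (f ∘ φ) (g₁ ⁻¹' Ioo u v)) : Nz s₁.bg.F.toPre (g₁ ⁻¹' Ioo u v) k f₁ =
      Nz (σ.P y.1.1).bg.F.toPre (g ⁻¹' Ioo u v) k f := by
  have o := (isOpen_Ioo (a := u) (b := v)).preimage hF.sm.continuous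
  have m : g₁ ⁻¹' Ioo u v ⊆ {x | a₀ - 3 ≤ g₁ x} := fun p hp => hu.trans hp.1.le
  refine (Nz_frame (F' := (σ₁.P t₁).bg.F.toPre) o (fun p hp a => ((hF.fr _ ht p (m hp)).2 a).2.symm)
    ?_ e).trans (N_iso L.iso continuous_zero o.measurableSet
      (isOpen_Ioo.preimage H.cont).measurableSet (fun p hp => H.src (hp.2.trans_le hv))
      (fun p hp => H.tgt (hp.2.trans_le hv)) (fun p hp => ⟨fun k => ?_, fun k => ?_⟩)
      (fun _ _ => rfl) hf)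
  · rw [← inter_eq_left.2 m, ← Measure.restrict_restrict o.measurableSet,
      ← Measure.restrict_restrict o.measurableSet, hF.fμ _ ht]
  · rwa [mem_preimage, ht_iff H hp (.inl (k.2.trans_le hv))]
  · rwa [mem_preimage, ← ht_iff H hp (.inr (k.2.trans_le hv))]

variable (ha : Ag φ {p | g₁ p < A} c.1.2 x'.1.2)
include ha

theorem strip {J : Finset d.W} {a₀ u v : ℝ} (hF : Face σ₁ g₁ J a₀) (H : Ht φ g₁ g A)
    (hu : a₀ - 3 ≤ u) (hv : v ≤ A) :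
    Nz s₁.bg.F.toPre (g₁ ⁻¹' Ioo u v) k (σ₁.al t₁ (y.1.2.pb φ) - σ₁.al x'.1.1 x'.1.2) =
      Nz (σ.P y.1.1).bg.F.toPre (g ⁻¹' Ioo u v) k
        (fun p => (WithLp.toLp 2 fun a => y.1.2.a a p - c.1.2.a a p : Fm (Option κ) ℝ)) ∧
    Nz s₁.bg.F.toPre (g₁ ⁻¹' Ioo u v) k ((y.1.2.pb φ).Φ - x'.1.2.Φ) =
      Nz (σ.P y.1.1).bg.F.toPre (g ⁻¹' Ioo u v) k (y.1.2.Φ - c.1.2.Φ) := by
  refine ⟨strip0 h₁ ht L hF H hu hv (fun p => sa_toLp fun a =>
    (y.2.2.1.sa a p).sub (c.2.2.1.sa a p)) fun p hp => ?_, strip0 h₁ ht L hF H hu hv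
      (y.2.2.1.sΦ.sub c.2.2.1.sΦ) fun p hp => congrArg (_ - ·) (ha p (hp.2.trans_le hv)).2.symm⟩
  have k1 := hu.trans hp.1.le
  have k2 := hp.2.trans_le hv
  ext a
  simp only [Pi.sub_apply, PiLp.sub_apply, Fam.al, ((hF.fr _ ht p k1).1 a _).2,
    ((hF.fr _ x'.2.1 p k1).1 a _).2, pa_pnt h₁, Cfg.pb, pa_pb h₁ ht L (H.src k2), comp, (ha p k2).1]

variable (h : σ.toFam.OK) (L₀ : (σ₁.P x'.1.1).bg.Lit (σ.P c.1.1).bg φ)
  (hs : {p | g₁ p < A} ⊆ φ.source)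
include h L₀ hs

theorem al_eq {p : X₁.M} (hp : g₁ p < A) (a : Option κ) :
    (σ₁.al t₁ (y.1.2.pb φ) - σ₁.al x'.1.1 x'.1.2) p a = ∑ b, σ₁.Si t₁ p a b * ∑ e,
      σ.S y.1.1 (φ p) b e * (σ.al y.1.1 y.1.2 - σ.al c.1.1 c.1.2) (φ p) e := by
  have U := (Gr93.u d ty X X₁ nc n₁ T T₁ s s₁ _ _ h h₁ _ y.2.1 _ c.2.1 _ ht _ x'.2.1 φ L L₀ p (hs hp)).1
  have e1 : ∀ b, ∑ e, σ.S y.1.1 (φ p) b e * σ.al c.1.1 c.1.2 (φ p) e =
      ∑ e, σ₁.S t₁ p b e * σ₁.al x'.1.1 x'.1.2 p e := fun b => by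
    simp only [Fam.al, Finset.mul_sum, ← mul_assoc]
    rw [Finset.sum_comm, Finset.sum_comm (f := fun e j => σ₁.S t₁ p b e * _ * _)]
    exact Finset.sum_congr rfl fun j _ => by
      rw [← Finset.sum_mul, ← Finset.sum_mul, U, (ha p hp).1]
  simp only [Pi.sub_apply, PiLp.sub_apply, mul_sub, Finset.sum_sub_distrib, e1,
    S_al h y.2.1 (pa_pnt h y)]
  exact congrArg₂ (· - ·) rfl (al_S h₁ ht (α := fun e p => σ₁.al x'.1.1 x'.1.2 p e)
    (P_al h₁ x'.2.1 _) 0 p a).symm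

/-- the cut point -/
theorem exists_cut (hβ : s.Cr σ.β) (hβ₁ : s₁.Cr σ₁.β) (hg : Hg s₁.bg.F.toPre g₁) (hq : q + 2 < A) :
    ∃ y₁ : σ₁.Pnt, y₁.1.1 = t₁ ∧ Ag φ {p | g₁ p ≤ q - 1} y.1.2 y₁.1.2 ∧
      σ₁.al t₁ y₁.1.2 = σ₁.al x'.1.1 x'.1.2 + (fun p => dn q 1 (g₁ p) •
        (σ₁.al t₁ (y.1.2.pb φ) - σ₁.al x'.1.1 x'.1.2) p) ∧
      y₁.1.2.Φ = x'.1.2.Φ + fun p => dn q 1 (g₁ p) • ((y.1.2.pb φ).Φ - x'.1.2.Φ) p := by
  have tr : ∀ {V : Type} [NormedAddCommGroup V] [NormedSpace ℝ V] {f : X.M → V},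
      Hi s.bg.F.toPre f → Hi s₁.bg.F.toPre fun p => dn q 1 (g₁ p) • f (φ p) := fun hf =>
    Hi.dom (Gr93.cmp h₁ ht).2 (hi_pull L.iso (hg_cmp (Gr93.cmp h₁ ht) hg) hs hq
      (Hi.dom (Gr93.cmp h y.2.1).1 hf))
  have z : ∀ p, ¬g₁ p < A → dn q 1 (g₁ p) = 0 := fun p hp =>
    Neck67.dn_zero one_pos (by linarith)
  have h1 := Hi.toLp fun a => Hi.sum Finset.univ fun b => Hi.smul ((h₁.sSi a b).cb _ ht)
    (tr (Hi.sum Finset.univ fun e => Hi.smul ((h.sS b e).cb _ y.2.1)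
      ((hi_al h hβ y c).clm (PiLp.proj 2 (fun _ : Option κ => ℝ) e))))
  obtain ⟨y₁, rfl, h2, h3⟩ := exists_add h₁ hβ₁ ht x' (a := fun p => dn q 1 (g₁ p) •
      (σ₁.al t₁ (y.1.2.pb φ) - σ₁.al x'.1.1 x'.1.2) p)
      (φ := fun p => dn q 1 (g₁ p) • ((y.1.2.pb φ).Φ - x'.1.2.Φ) p) (by
    convert h1 using 2 with p
    ext a
    by_cases hp : g₁ p < A
    · rw [PiLp.smul_apply, al_eq h₁ ht L ha h L₀ hs hp, smul_eq_mul, Finset.mul_sum]
      exact Finset.sum_congr rfl fun b _ => mul_left_comm _ _ _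
    · simp [z p hp]) (by
    convert tr (hi_Φ h hβ y c) using 2 with p
    by_cases hp : g₁ p < A
    · simp only [Pi.sub_apply, (ha p hp).2, Cfg.pb]
    · simp [z p hp]) (fun p => by
    rw [map_smul]
    ext a
    simp only [PiLp.smul_apply, p1_apply, Pi.sub_apply, PiLp.sub_apply, mul_sub,
      Finset.sum_sub_distrib, P_al h₁ ht, P_al h₁ x'.2.1]) fun p => by
    by_cases hp : g₁ p < A
    · rw [map_smul, Pi.sub_apply, map_sub, ← pp_fam h₁ ht, (la_pb h₁ ht L (hs hp)).pΦ,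
        pp_fam h₁ ht, ← pp_fam h₁ x'.2.1, x'.2.2.1.pΦ]
    · simp [z p hp]
  refine ⟨y₁, rfl, fun p hp => ?_, h2, h3⟩
  have k1 : g₁ p ≤ q - 1 := hp
  have k2 := Neck67.dn_one one_pos k1
  refine ⟨fun a => ?_, by simp [h3, k2, Cfg.pb]⟩
  rw [← S_al h₁ ht (pa_pnt h₁ y₁), h2]
  simp only [Pi.add_apply, k2, one_smul, Pi.sub_apply, add_sub_cancel]
  exact (S_al_at h₁ ht (c := y.1.2.pb φ) (pa_pb h₁ ht L (hs (by
    show g₁ p < A; linarith))) a).symm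

end half

theorem near {ι : Type} [Fintype ι] {F : Pre X.I X.M ι} {g : X.M → ℝ} (hg : Continuous g)
    {r : α → ℝ} {f v : α → X.M → V} {w : X.M → V} (hw : Sm X.I w) (hv : ∀ i, Sm X.I (v i))
    (hf : ∀ᶠ i in l, ∃ a > r i, SmO X.I {p | g p < a} (f i))
    (h1 : ∀ u : List ι, u.length ≤ k →
      Tendsto (fun i => ∫⁻ p in {p | g p ≤ r i}, ‖F.Dw u (f i - w) p‖ₑ ^ 2 ∂F.μ) l (𝓝 0))
    (h2 : Tendsto (fun i => Nz F univ k (v i - w)) l (𝓝 0)) :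
    Tendsto (fun i => Nz F {p | g p ≤ r i} k (f i - v i)) l (𝓝 0) := by
  have m : ∀ i, MeasurableSet {p | g p ≤ r i} := fun i => (isClosed_le hg continuous_const).measurableSet
  have h3 := Nz_tendsto k (hf.mono fun i ⟨a, k1, k2⟩ => ⟨m i, fun p hp =>
    (k2 p (lt_of_le_of_lt hp k1)).sub (hw p)⟩) h1
  have h4 := (ENNReal.Tendsto.const_mul (a := 2) h3 (by simp)).add
    (ENNReal.Tendsto.const_mul (a := 2) h2 (by simp))
  refine tendsto_of_tendsto_of_tendsto_of_le_of_le' tendsto_const_nhds (by simpa using h4)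
    (.of_forall fun _ => zero_le) (hf.mono fun i ⟨a, k1, k2⟩ => ?_)
  rw [show f i - v i = (f i - w) + (w - v i) by abel]
  refine (N_add (isOpen_lt hg continuous_const) (m i) (fun p hp => lt_of_le_of_lt hp k1)
    continuous_zero (k2.sub (smO hw)) (smO (hw.sub (hv i)))).trans (add_le_add le_rfl
      (mul_le_mul_right ((N_sub_comm (u := w)).trans_le (N_mono (subset_univ _))) _))

theorem est {ι : Type} [Fintype ι] {F₁ : Pre X₁.I X₁.M ι} {F₂ : Pre X₂.I X₂.M ι} {g₁ : X₁.M → ℝ}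
    {g₂ : X₂.M → ℝ} (hg : Hg F₁ g₁) {Λ : α → ℝ} {f₁ v : α → X₁.M → V} {f₂ : α → X₂.M → V}
    {w : X₁.M → V} (hw : Sm X₁.I w) (hv : ∀ i, Sm X₁.I (v i))
    (hf : ∀ᶠ i in l, 2 < Λ i ∧ SmO X₁.I {p | g₁ p < 3 * Λ i + 3} (f₁ i) ∧
      Nz F₁ (g₁ ⁻¹' Ioo (2 * Λ i + 1) (2 * Λ i + 4)) k (f₁ i) =
        Nz F₂ (g₂ ⁻¹' Ioo (2 * Λ i - 4) (2 * Λ i - 1)) k (f₂ i))
    (h1 : Tendsto (fun i => Nz F₁ {p | g₁ p ≤ 2 * Λ i + 1} k (f₁ i)) l (𝓝 0))
    (h2 : Tendsto (fun i => Nz F₂ {p | g₂ p ≤ 2 * Λ i + 1} k (f₂ i)) l (𝓝 0))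
    (h3 : Tendsto (fun i => Nz F₁ univ k (v i - w)) l (𝓝 0)) : Tendsto (fun i => Nz F₁ univ k
      (v i + (fun p => dn (2 * Λ i + 3) 1 (g₁ p) • f₁ i p) - w)) l (𝓝 0) := by
  obtain ⟨C, c1, c2⟩ := Nz_cut (V := V) hg k
  have h4 := (ENNReal.Tendsto.const_mul (a := 2) h3 (by simp)).add
    (ENNReal.Tendsto.const_mul (a := 2)
      (ENNReal.Tendsto.const_mul (a := C) (h1.add h2) (.inr c1)) (by simp))
  refine tendsto_of_tendsto_of_tendsto_of_le_of_le' tendsto_const_nhds (by simpa using h4)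
    (.of_forall fun _ => zero_le) (hf.mono fun i ⟨k1, k2, k3⟩ => ?_)
  rw [add_sub_right_comm]
  refine (N_add isOpen_univ .univ Subset.rfl continuous_zero (smO ((hv i).sub hw))
    (smO (sm_cut hg.sm (by linarith) k2))).trans (add_le_add le_rfl (mul_le_mul_right
      ((c2 _ _ _ (by linarith) k2).trans (mul_le_mul_right ?_ _)) _))
  refine (N_mono fun p hp => ?_).trans (N_union.trans (add_le_add le_rfl
    (k3.trans_le (N_mono fun p hp => ?_))))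
  · exact (le_or_gt (g₁ p) (2 * Λ i + 1)).imp id fun k => ⟨k, by linarith [mem_ofPred.1 hp]⟩
  · exact show g₂ p ≤ _ by linarith [hp.2]

/-- the data at one index -/
structure Dat (S : Sp X X₁ X₂ nc n₁ n₂ T T₁ T₂) (δ : ℝ × ℝ) (y c : σ.Pnt) (t₁ : T₁) (x' : σ₁.Pnt)
    (g : X.M → ℝ) : Prop where
  Q : t₁ ∈ σ₁.Q
  L : (σ₁.P t₁).bg.Lit (σ.P y.1.1).bg (S.φ₁ δ)
  L₀ : (σ₁.P x'.1.1).bg.Lit (σ.P c.1.1).bg (S.φ₁ δ)
  H : Ht (S.φ₁ δ) S.g₁ g (3 * S.Λ δ + 3)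
  ag : Ag (S.φ₁ δ) {p | S.g₁ p < 3 * S.Λ δ + 3} c.1.2 x'.1.2
  F : ∃ a, Face σ₁ S.g₁ ∅ a ∧ a + 1 ≤ 2 * S.Λ δ ∧ 2 < S.Λ δ

theorem ev_dat (G : S.Geo σ σ₁ σ₂) (hP : S.Pre x z xx zz cc) (hδ : Tendsto δ l S.lg)
    (h : S.Nr k l δ y t₁ t₂ x z) : ∀ᶠ i in l, ∃ g, Dat S (δ i) (y i) (cc (δ i)) (t₁ i) (xx (δ i)) g ∧
      Dat S.swap (δ i) (y i) (cc (δ i)) (t₂ i) (zz (δ i)) fun p => 4 * S.Λ (δ i) - g p := by
  obtain ⟨a, f1, f2, h1⟩ := (G.mt ∅).exists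
  have h2 : Tendsto (fun i => S.Λ (δ i)) l atTop := tendsto_comap_iff.1 (hδ.mono_right inf_le_left)
  filter_upwards [hδ.eventually h1, hδ.eventually G.ht, hδ.eventually hP.ag, h.t,
    h.l₁.eventually (G.ok₁.opn.mem_nhds x.2.1), h.l₂.eventually (G.ok₂.opn.mem_nhds z.2.1),
    h2.eventually_gt_atTop 2, h2.eventually_ge_atTop ((a + 1) / 2)] with i k1 ⟨g, k2, k3⟩ k4 k5 k6 k7
      k8 k9
  have a1 := (k1 _ k6 _ k7).2
  have a2 := (k1 _ (xx (δ i)).2.1 _ (zz (δ i)).2.1).2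
  rw [← k5] at a1
  rw [← k4.2.2.1] at a2
  exact ⟨g, ⟨k6, a1.1.lit, a2.1.lit, k2, k4.2.2.2.1, a, f1, by linarith, k8⟩,
    ⟨k7, a1.2.lit, a2.2.lit, k3, k4.2.2.2.2, a, f2, show _ ≤ 2 * S.Λ _ by linarith, k8⟩⟩

theorem near_nr (G : S.Geo σ σ₁ σ₂) (hP : S.Pre x z xx zz cc) (hδ : Tendsto δ l S.lg)
    (h : S.Nr k l δ y t₁ t₂ x z) :
    Tendsto (fun i => Nz s₁.bg.F.toPre {p | S.g₁ p ≤ 2 * S.Λ (δ i) + 1} k (σ₁.al (t₁ i)
      ((y i).1.2.pb (S.φ₁ (δ i))) - σ₁.al (xx (δ i)).1.1 (xx (δ i)).1.2)) l (𝓝 0) ∧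
    Tendsto (fun i => Nz s₁.bg.F.toPre {p | S.g₁ p ≤ 2 * S.Λ (δ i) + 1} k
      (((y i).1.2.pb (S.φ₁ (δ i))).Φ - (xx (δ i)).1.2.Φ)) l (𝓝 0) := by
  have h₁ := G.ok₁.toOK
  obtain ⟨h1, h2, -⟩ := (dk_iff h₁ (cr_of_gd G.ok₁.gd)).1 ((hP.cx k).comp hδ)
  have sa : ∀ y : σ₁.Pnt, Sm X₁.I (σ₁.al y.1.1 y.1.2) := fun y p =>
    sa_toLp fun a => ((adm_fam h₁ y.2.1 _).1 y.2.2.1).1.sa a p
  have D := ev_dat G hP hδ h
  refine ⟨near G.hg.1.sm.continuous (sa x) (fun _ => sa _) (D.mono fun i ⟨g, D, _⟩ => ⟨_, ?_,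
      fun p hp => smo_a h₁ D.Q D.L p (D.H.src hp)⟩) (fun w hw => ?_) h1,
    near G.hg.1.sm.continuous x.2.2.1.sΦ (fun i => (xx _).2.2.1.sΦ) (D.mono fun i ⟨g, D, _⟩ => ⟨_, ?_,
      fun p hp => (la_pb h₁ D.Q D.L (D.H.src hp)).sΦ⟩) (fun w hw => ?_) h2⟩
  · linarith [D.F.choose_spec.2.2]
  · exact tendsto_of_tendsto_of_tendsto_of_le_of_le tendsto_const_nhds (h.c₁ w hw)
      (fun _ => zero_le) fun i => lintegral_mono fun _ => le_self_add
  · linarith [D.F.choose_spec.2.2]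
  · exact tendsto_of_tendsto_of_tendsto_of_le_of_le tendsto_const_nhds (h.c₁ w hw)
      (fun _ => zero_le) fun i => lintegral_mono fun _ => le_add_self

theorem cp_half (G : S.Geo σ σ₁ σ₂) (hP : S.Pre x z xx zz cc) (hδ : Tendsto δ l S.lg)
    (h : S.Nr k l δ y t₁ t₂ x z) : ∃ y₁ : α → σ₁.Pnt,
      Tendsto (fun i => σ₁.dk k (y₁ i) x) l (𝓝 0) ∧ ∀ᶠ i in l, (y₁ i).1.1 = t₁ i ∧
        Ag (S.φ₁ (δ i)) {p | S.g₁ p < 2 * S.Λ (δ i) + 2} (y i).1.2 (y₁ i).1.2 := by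
  have h₁ := G.ok₁.toOK
  have hβ := cr_of_gd G.ok₁.gd
  have D := ev_dat G hP hδ h
  obtain ⟨y₁, hy⟩ := ev_choice x (D.mono fun i ⟨g, D, _⟩ => exists_cut (q := 2 * S.Λ (δ i) + 3) h₁ D.Q D.L D.ag
    G.ok.toOK D.L₀ D.H.src (cr_of_gd G.ok.gd) hβ G.hg.1 (by linarith [D.F.choose_spec.2.2]))
  obtain ⟨h1, h2, -⟩ := (dk_iff h₁ hβ).1 ((hP.cx k).comp hδ)
  obtain ⟨a1, a2⟩ := near_nr G hP hδ h
  obtain ⟨b1, b2⟩ := near_nr (geo_swap G) (pre_swap hP) hδ (nr_swap h)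
  have sa : ∀ y : σ₁.Pnt, Sm X₁.I (σ₁.al y.1.1 y.1.2) := fun y p =>
    sa_toLp fun a => ((adm_fam h₁ y.2.1 _).1 y.2.2.1).1.sa a p
  have st := D.mono fun i ⟨g, D, D'⟩ => by
    obtain ⟨a, f1, f2, f3⟩ := D.F
    obtain ⟨a', f1', f2', -⟩ := D'.F
    have f2' : a' + 1 ≤ 2 * S.Λ (δ i) := f2'
    have e1 := strip (k := k) h₁ D.Q D.L D.ag f1 D.H (u := 2 * S.Λ (δ i) + 1)
      (v := 2 * S.Λ (δ i) + 4) (by linarith) (by linarith)
    have e2 := strip (k := k) G.ok₂.toOK D'.Q D'.L D'.ag f1' D'.H (u := 2 * S.Λ (δ i) - 4)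
      (v := 2 * S.Λ (δ i) - 1) (by linarith) (show _ ≤ 3 * S.Λ _ + 3 by linarith)
    rw [show (fun p => 4 * S.Λ (δ i) - g p) ⁻¹' Ioo (2 * S.Λ (δ i) - 4) (2 * S.Λ (δ i) - 1) =
      g ⁻¹' Ioo (2 * S.Λ (δ i) + 1) (2 * S.Λ (δ i) + 4) from Set.ext fun p =>
        ⟨fun k => ⟨by linarith [k.2], by linarith [k.1]⟩,
          fun k => ⟨by linarith [k.2], by linarith [k.1]⟩⟩] at e2
    exact And.intro (And.intro f3 (And.intro (fun p hp => (smo_a h₁ D.Q D.L p (D.H.src hp)).sub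
      (sa (xx (δ i)) p)) (e1.1.trans e2.1.symm))) (And.intro f3 (And.intro
        (fun p hp => (la_pb h₁ D.Q D.L (D.H.src hp)).sΦ.sub ((xx (δ i)).2.2.1.sΦ p))
        (e1.2.trans e2.2.symm)))
  refine ⟨y₁, (dk_iff h₁ hβ).2 ⟨(est G.hg.1 (sa x) (fun _ => sa _) (st.mono fun _ k => k.1)
    a1 b1 h1).congr' (hy.mono fun i k => by simp only [k.1, k.2.2.1]; rfl), (est G.hg.1 x.2.2.1.sΦ
      (fun i => (xx _).2.2.1.sΦ) (st.mono fun _ k => k.2) a2 b2 h2).congr'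
      (hy.mono fun i k => by simp only [k.2.2.2]; rfl), h.l₁.congr' (hy.mono fun i k => k.1.symm)⟩,
    hy.mono fun i k => ⟨k.1, fun p hp => k.2.1 p (mem_ofPred.2 (by linarith [mem_ofPred.1 hp]))⟩⟩

variable (d ty X X₁ X₂ nc nr n₁ r₁ n₂ r₂ T T₁ T₂) in
/-- **GL-CP** -/
theorem cpStmt : CpStmt d ty X X₁ X₂ nc nr n₁ r₁ n₂ r₂ T T₁ T₂ := by
  intro s s₁ s₂ σ σ₁ σ₂ S G x z xx zz cc hP k _ ι l δ y t₁ t₂ hδ h
  obtain ⟨y₁, h1, h2⟩ := cp_half G hP hδ h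
  obtain ⟨y₂, h3, h4⟩ := cp_half (geo_swap G) (pre_swap hP) hδ (nr_swap h)
  refine ⟨y₁, y₂, h1, h3, ?_⟩
  filter_upwards [h2, h4, h.t] with i k1 k2 k3
  exact ⟨k1.1, k2.1, by rw [k1.1, k2.1, k3], k1.2, k2.2⟩

end Crest.Agent.X212.Gl50
end
end

-- ▼ part X212/Gl50/Face

/-!
# Row 212, GL-S (helper50): GL-FACE, locality on a cell with an end
-/

set_option autoImplicit false
set_option linter.unusedSectionVars false
noncomputable section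
open scoped Manifold ContDiff Topology InnerProductSpace ENNReal
open MeasureTheory Set Function Filter

namespace Crest.Agent.X212.Gl50
open An Sob92 Prm93 Pb50 Sw Cyf70 Gls64 Sw.En3
open M (Mf pm)
open Nd18 (Dp Jv fl tf)
open Cut71 (At)

variable {κ lam ν : Type} [Fintype κ] [Fintype lam] [Fintype ν] [DecidableEq ν]
  {X : Mf 4} {nc nc' nr : ℕ}

theorem fl_nonneg {s : ℝ} (h : 1 / 2 ≤ s) : 0 ≤ fl s :=
  mul_nonneg (by linarith) (sub_nonneg.2 (Real.smoothTransition.le_one _))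

theorem sub_fl {s : ℝ} (h : s < 1) : s - fl s ≤ 1 := by
  rcases le_total s (1 / 2) with k | k
  · rw [Nd18.fl_le k]; linarith
  · linarith [fl_nonneg k]

theorem lit_refl (b : Bg X.I X.M κ lam ν nc) : b.Lit b (OpenPartialHomeomorph.refl _) :=
  ⟨⟨contMDiffOn_id, contMDiffOn_id, fun a x _ => by
      show mfderiv _ _ id x _ = _
      rw [mfderiv_id]; rfl, by simp⟩, fun _ _ _ _ => rfl, fun _ _ _ _ _ _ => rfl, rfl, rfl,
    fun _ _ => rfl, fun _ _ _ => rfl, fun _ _ _ => rfl, fun _ _ => rfl, fun _ _ => rfl⟩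

section nk
variable {e : En3 κ lam ν} {b : Bg X.I X.M κ lam ν nc} {b' : Bg X.I X.M κ lam ν nc'} (K : Nk e b)
  {o : Bool} {x : X.M} {c c' : Cfg X.M κ ν}

/-- a bound of the finite side -/
def bd : ℝ := |K.p.getD 0| + |K.q.getD 0|

theorem bd_nonneg : 0 ≤ bd K := add_nonneg (abs_nonneg _) (abs_nonneg _)

theorem ht_eq (hx : x ∈ K.dp 1) : ht K o x = pm o * K.tm x := by rw [ht, K.τ_eq hx]

theorem hg_ht : Hg b.F.toPre (ht K o) :=
  ⟨(contMDiff_const (I' := 𝓘(ℝ, ℝ)) (c := pm o)).smul K.sm_τ, fun a => by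
  rw [show ht K o = pm o • K.τ from rfl, Pre.D_smul _ K.sm_τ]
  exact Cb_smul (Cb_const _) (K.cd_τ.2 a)⟩

variable {K} (h : K.Inf o)
include h

theorem dp_of {D t : ℝ} (k : bd K + D ≤ pm o * t) : t ∈ Dp K.p K.q D := by
  have a1 := abs_nonneg (K.p.getD 0)
  have a2 := abs_nonneg (K.q.getD 0)
  rw [bd] at k
  cases o
  · have hp : K.p = none := h
    refine ⟨by simp [hp], fun a ha => ?_⟩
    rw [Option.mem_def.1 ha] at k
    simp only [pm, Bool.false_eq_true, if_false, Option.getD_some] at k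
    linarith [neg_abs_le a]
  · have hq : K.q = none := h
    refine ⟨fun a ha => ?_, by simp [hq]⟩
    rw [Option.mem_def.1 ha] at k
    simp only [pm, if_true, Option.getD_some] at k
    linarith [le_abs_self a]

theorem ht_le (hx : x ∉ K.dp 1) : ht K o x ≤ bd K + 1 := by
  have a1 := abs_nonneg (K.p.getD 0)
  have a2 := abs_nonneg (K.q.getD 0)
  rcases Nd18.not_Dp hx with ⟨a, h1, h2⟩ | ⟨a, h1, h2⟩ <;> cases o
  · exact (Option.some_ne_none _ (h1.symm.trans h)).elim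
  · have hq : K.q = none := h
    simp only [ht, Nd18.Nk.τ, tf, bd, h1, hq, pm, if_true, Option.elim_some, Option.elim_none,
      Option.getD_some, Option.getD_none]
    linarith [sub_fl (s := K.tm x - a) (by linarith), le_abs_self a, abs_zero (α := ℝ)]
  · have hp : K.p = none := h
    simp only [ht, Nd18.Nk.τ, tf, bd, h1, hp, pm, Bool.false_eq_true, if_false, Option.elim_some,
      Option.elim_none, Option.getD_some, Option.getD_none]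
    linarith [sub_fl (s := a - K.tm x) (by linarith), neg_abs_le a, abs_zero (α := ℝ)]
  · exact (Option.some_ne_none _ (h1.symm.trans h)).elim

theorem ht_dp (hx : bd K + 1 < ht K o x) : x ∈ K.dp 1 := by_contra fun k => hx.not_ge (ht_le h k)

theorem ht_off (hx : x ∉ K.ψ.target) : ht K o x ≤ bd K + 1 := ht_le h (off K hx)

/-- a high point lies on the neck -/
theorem ht_ψ (hx : bd K + 1 < ht K o x) : ∃ z ∈ K.ψ.source, K.ψ z = x ∧ pm o * z.2 = ht K o x :=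
  have k := K.dp_sub one_pos (ht_dp h hx)
  ⟨_, K.ψ.map_target k, K.ψ.right_inv k, by rw [K.snd_symm k, ht_eq K (ht_dp h hx)]⟩

theorem ht_at {z : e.Y.M × ℝ} (hz : bd K + 1 ≤ pm o * z.2) :
    z ∈ K.ψ.source ∧ ht K o (K.ψ z) = pm o * z.2 := by
  have k := dp_of h hz
  have s := K.mem_src.2 (Nd18.Dp_sub one_pos k)
  exact ⟨s, by rw [ht_eq K (show K.tm _ ∈ _ by rwa [K.tm_ψ z s]), K.tm_ψ z s]⟩

theorem ht_lt {z : e.Y.M × ℝ} (hz : z ∈ K.ψ.source) {a : ℝ} (h1 : bd K + 1 < a)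
    (h2 : pm o * z.2 < a) : ht K o (K.ψ z) < a := by
  by_cases k : K.ψ z ∈ K.dp 1
  · rwa [ht_eq K k, K.tm_ψ z hz]
  · exact (ht_le h k).trans_lt h1

omit h in
theorem pm_win {s t : ℝ} (hs : s ∈ Icc (t - 1 / 2) (t + 1 / 2)) : |pm o * s - pm o * t| ≤ 1 / 2 := by
  cases o <;> simp only [pm, Bool.false_eq_true, if_false, if_true] <;> rw [abs_le] <;>
    constructor <;> linarith [hs.1, hs.2]

omit h in
/-- the terms of a neck only see the slices near the point -/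
theorem terms {K' : Nk e b'} (g : K'.ng = K.ng) (ha : x ∈ K.dp 1 →
      ∀ s ∈ Icc (K.tm x - 1 / 2) (K.tm x + 1 / 2), ∀ y, At id c c' (K.ψ (y, s))) :
    K.rad c x = K'.rad c' x ∧ K.hl c x = K'.hl c' x ∧ ∀ T, K.ms T c x = K'.ms T c' x := by
  by_cases hx : x ∈ K.dp 1
  · have k := K.dp_sub one_pos hx
    have := (Cut71.Mt.terms (K := K') (K' := K) (c := c') (c' := c) (t := K.tm x) (δ := 0)
      ⟨Nd18.Dp_sub one_pos hx, by simpa [Nd18.Nk.J, ng_p g, ng_q g] using Nd18.Dp_sub one_pos hx,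
        by simp [Nd18.Nk.cut, ng_p g, ng_q g], fun _ s hs => by
          rw [add_zero, Nk.pb, Nk.pb, ng_ψ g]
          exact YC.ext (funext fun j => funext fun y => (ha hx s hs y).1 _)
            (funext fun y => (ha hx s hs y).2)⟩ (K.ψ.symm x).1)
    rwa [add_zero, ng_ψ g, ← K.snd_symm k, Prod.mk.eta, K.ψ.right_inv k] at this
  · have hx' : x ∉ K'.dp 1 := by simpa only [Nd18.Nk.dp, ng_p g, ng_q g, ng_tm g] using hx
    simp only [Nk.rad, Nk.hl, Nk.ms, K.χ_zero hx, K'.χ_zero hx', K.ext_zero _ hx, K'.ext_zero _ hx',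
      zero_mul, zero_smul, smul_zero, implies_true, and_self]

end nk

variable {d : Dt κ lam ν} {N : Type} [Fintype N] {ty : N → d.𝓔}
  {T : Type} [NormedAddCommGroup T] [NormedSpace ℝ T] [FiniteDimensional ℝ T]
  {s : Pz X 0 fun i => d.e (ty i)} {σ : Cel s nc nr T}

theorem JC.sp {Q : Set T} {f : T → R4 → Eu ν} (h : JC Q f) :
    ∀ᶠ R in atTop, ∀ t ∈ Q, Kop92.Sp R (f t) := by
  obtain ⟨-, K, h1, h2⟩ := h
  obtain ⟨R, hR⟩ := h1.isBounded.exists_norm_le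
  exact (eventually_ge_atTop R).mono fun R' k t ht y hy => h2 t ht y fun m => by linarith [hR y m]

/-- the terms at a point of the neck `i` -/
theorem at_nk {P : Pc d X nc ty} (hP : P.OK) {i : N} {K : Nk (d.e (ty i)) P.bg} (hK : K ∈ P.nk i)
    {x : X.M} (hx : x ∈ K.ψ.target) (c : Cfg X.M κ ν) : P.p0.D c x = K.rad c x ∧
      P.p0.C c x = K.hl c x ∧
      ∀ w, P.tm w c x = P.fo w x + (d.yt w (ty i)).elim 0 fun T => K.ms T c x :=
  ⟨sum_nk hP.toOK hK hx (fun _ K' => K'.rad c x) fun j K' h => by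
      rw [Nk.rad, K'.χ_zero h, zero_mul, zero_smul],
    sum_nk hP.toOK hK hx (fun _ K' => K'.hl c x) fun j K' h => by
      rw [Nk.hl, K'.ext_zero _ h, smul_zero],
    fun w => congrArg (_ + ·) (sum_nk hP.toOK hK hx
      (fun j K' => (d.yt w (ty j)).elim 0 fun T => K'.ms T c x) fun j K' h =>
        elim_zero fun T _ => by rw [Nk.ms, K'.ext_zero _ h, smul_zero])⟩

variable (h : σ.toFam.OK) {i : N} {o : Bool} {K : Nk (d.e (ty i)) s.bg} (hK : K ∈ s.nk i)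
  (ho : K.Inf o) {J : Finset d.W} {a : ℝ} {t t' : T} (ht : t ∈ σ.Q) {c c' : Cfg X.M κ ν} {x : X.M}
include h hK ho ht

theorem face_lft (ha : bd K < a) (hc : Ag id {x | Gls64.ht K o x < a + 2} c c')
    (hx : Gls64.ht K o x < a) : EqF (σ.P t) (σ.P t) J c c' x x := by
  have ev : ∀ᶠ y in 𝓝 x, At (OpenPartialHomeomorph.refl _) c c' y :=
    mem_of_superset ((isOpen_lt (hg_ht K).sm.continuous continuous_const).mem_nhds
      (show Gls64.ht K o x < a + 2 by linarith)) hc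
  obtain ⟨K₀, h0, g0⟩ := h.en t ht i K hK
  have tr := fun j (K' : Nk (d.e (ty j)) (σ.P t).bg) (hK' : K' ∈ (σ.P t).nk j) =>
    terms (c := c) (c' := c') (x := x) (K := K') rfl fun k u hu y => hc _ (by
      have m := src K' (half_J K' k hu) y
      by_cases e : j = i
      · subst e
        obtain rfl := Option.mem_unique h0 hK'
        rw [ng_ψ g0] at m ⊢
        rw [ng_tm g0] at hu
        rw [ht_eq K (by simpa only [Nd18.Nk.dp, ng_p g0, ng_q g0, ng_tm g0] using k)] at hx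
        exact ht_lt ho m (by linarith) (by linarith [(abs_le.1 (pm_win (o := o) hu)).2])
      · exact (ht_off ho fun m' => disjoint_left.1 ((h.ok t ht).dj e K' hK' K₀ h0)
          (K'.ψ.map_source m) (ng_ψ g0 ▸ m')).trans_lt (by linarith))
  exact ⟨congrArg₂ (· - ·) (Cut71.eD_φ (lit_refl _) trivial ev)
      (Finset.sum_congr rfl fun j _ => elim_congr fun K' k => (tr j K' k).1),
    congrArg₂ (· - ·) (Cut71.eC_φ (lit_refl _) trivial ev)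
      (Finset.sum_congr rfl fun j _ => elim_congr fun K' k => (tr j K' k).2.1),
    fun w _ => congrArg (_ + ·) (Finset.sum_congr rfl fun j _ => elim_congr fun K' k =>
      elim_congr fun T _ => (tr j K' k).2.2 T)⟩

theorem face_rgt (ht' : t' ∈ σ.Q) (ha : bd K + 2 ≤ a)
    (hf : ∀ w ∈ J, ∃ r ≤ a, ∀ t ∈ σ.Q, ∀ x ∉ s.core r, (σ.P t).fo w x = 0)
    (hc : Ag id {x | a - 2 < Gls64.ht K o x} c c') (hx : a < Gls64.ht K o x) :
    EqF (σ.P t) (σ.P t') J c c' x x := by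
  obtain ⟨K₀, h0, g0⟩ := h.en t ht i K hK
  obtain ⟨K₁, h1, g1⟩ := h.en t' ht' i K hK
  obtain ⟨z, hz, rfl, e⟩ := ht_ψ ho (x := x) (by linarith)
  have ev : ∀ᶠ y in 𝓝 z, At K₁.ψ (K₀.pb c) c' y := by
    have := (K.ψ.continuousAt hz).eventually ((isOpen_lt continuous_const
      (hg_ht K).sm.continuous).mem_nhds (show a - 2 < Gls64.ht K o (K.ψ z) by linarith))
    rw [Nk.pb, ng_ψ g0, ng_ψ g1]
    exact this.mono fun y hy => hc _ hy
  have z0 : z ∈ K₀.ψ.source := ng_ψ g0 ▸ hz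
  have z1 : z ∈ K₁.ψ.source := ng_ψ g1 ▸ hz
  have e1 := (eD_ψ K₀ z0 c).trans (Cut71.eD_φ (Cut71.nk_lit K₁) z1 ev)
  have e2 := (eC_ψ K₀ z0 c).trans (Cut71.eC_φ (Cut71.nk_lit K₁) z1 ev)
  have e3 := at_nk (h.ok t ht) h0 (K₀.ψ.map_source z0) c
  have e4 := at_nk (h.ok t' ht') h1 (K₁.ψ.map_source z1) c'
  have e5 := terms (c := c) (c' := c') (x := K.ψ z) (g1.trans g0.symm) fun _ u hu y => hc _ (by
    rw [ng_tm g0, K.tm_ψ z hz] at hu
    have := (abs_le.1 (pm_win (o := o) hu)).1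
    rw [ng_ψ g0]
    exact lt_of_lt_of_eq (by linarith) (ht_at ho (z := (y, u)) (by linarith)).2.symm)
  rw [ng_ψ g0] at e1 e2 e3
  rw [ng_ψ g1] at e1 e2 e4
  refine ⟨by rw [e1, e3.1, e4.1, e5.1], by rw [e2, e3.2.1, e4.2.1, e5.2.1], fun w hw => ?_⟩
  obtain ⟨r, r1, r2⟩ := hf w hw
  have m : K.ψ z ∉ s.core r := fun k => k i o K hK ho ⟨z, ⟨trivial, K.mem_src.1 hz,
    show r < _ by linarith⟩, rfl⟩
  rw [e3.2.2, e4.2.2, r2 t ht _ m, r2 t' ht' _ m]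
  exact congrArg _ (elim_congr fun T _ => e5.2.2 T)

theorem face_fr (hx : bd K + 1 < Gls64.ht K o x) : (∀ a b, σ.S t x a b = s.bg.B.P a b x ∧
    σ.Si t x a b = s.bg.B.P a b x) ∧ ∀ a, (σ.P t).bg.F.dv a x = s.bg.F.dv a x ∧
      (σ.P t).bg.F.e a x = s.bg.F.e a x := by
  obtain ⟨K₀, -, g0⟩ := h.en t ht i K hK
  obtain ⟨z, hz, rfl, -⟩ := ht_ψ ho hx
  refine ⟨fun a b => ⟨S_nk h ht hK hz a b, Si_nk h ht hK hz a b⟩, fun a => ⟨?_, ng_e g0 a hz⟩⟩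
  have := Met55.iso_dv K₀.iso (ng_ψ g0 ▸ hz) a
  rw [ng_ψ g0] at this
  exact this.symm.trans (Met55.iso_dv K.iso hz a)

omit hK ho ht in
theorem face_cut {g : X.M → ℝ} (hg : Continuous g) (J : Finset d.W) : ∀ᶠ a in atTop, ∀ t ∈ σ.Q,
    ∀ c c', (σ.P t).bg.Adm c' → Ag id {x | g x < a + 2} c c' → EqS (σ.P t) (σ.P t) J id c c' := by
  obtain ⟨t₀, h0⟩ := h.ne
  have C := fun j => (h.ok t₀ h0).bg.ct j
  have h1 : ∀ j, ∀ᶠ R in atTop, Kop92.Sp R ((σ.P t₀).bg.ct j).ρ := fun j => by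
    obtain ⟨R, hR⟩ := (C j).cρ.isCompact.isBounded.exists_norm_le
    exact (eventually_ge_atTop R).mono fun R' k y hy =>
      image_eq_zero_of_notMem_tsupport fun m => by linarith [hR y m]
  obtain ⟨R, hR⟩ := (eventually_all.2 fun j => (h1 j).and ((JC.sp (h.η0 j)).and
    ((eventually_all_finset J).2 fun w _ => JC.sp (h.η w j)))).exists
  have h2 : ∀ j, ∀ᶠ a in atTop, ∀ y, ‖y‖ ≤ R → g (((σ.P t₀).bg.ct j).Ξ y) < a + 2 := fun j => by
    obtain ⟨M, hM⟩ := (isCompact_closedBall (0 : R4) R).bddAbove_image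
      (hg.comp (C j).sm.continuous).continuousOn
    exact (eventually_ge_atTop M).mono fun a k y hy => by
      linarith [show g _ ≤ M from hM ⟨y, mem_closedBall_zero_iff.2 hy, rfl⟩]
  filter_upwards [eventually_all.2 h2] with a ha t ht c c' hc e j
  have k := fun η (hη : Kop92.Sp R η) => Cut71.lη_φ (lit_refl (σ.P t).bg) (h.ok t ht).bg
    (h.ok t ht).bg hc (c := c) (j := j) (subset_univ _) (fun _ => rfl) rfl
    ((h.ct t₀ h0 t ht j).2 ▸ (hR j).1) hη fun y hy => e _ ((h.ct t₀ h0 t ht j).1 ▸ ha j y hy)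
  exact ⟨k _ ((hR j).2.1 t ht), fun w hw => k _ ((hR j).2.2 w hw t ht)⟩

omit h hK ho ht in
variable (d ty X nc nr T) in
/-- **GL-FACE** -/
theorem faceStmt : FaceStmt d ty X nc nr T := by
  intro s σ h i o K hK ho J
  have h := h.toOK
  have hg := hg_ht (o := o) K
  choose r hr using h.cfo
  filter_upwards [eventually_ge_atTop (bd K + 5), face_cut h hg.sm.continuous J,
    (eventually_all_finset J).2 fun w _ => eventually_ge_atTop (r w)] with a h1 h2 h3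
  refine ⟨hg.sm, hg.cb, fun a' k t ht c c' _ _ e x hx => face_lft h hK ho ht (by linarith) e hx,
    fun a' k t ht t' ht' c c' _ _ e x hx => face_rgt h hK ho ht ht' (by linarith)
      (fun w hw => ⟨_, (h3 w hw).trans k, hr w⟩) e hx,
    fun t ht c c' _ hc => h2 t ht c c' hc, fun t ht x hx => face_fr h hK ho ht (by linarith),
    fun t ht => ?_⟩
  have m : {x | a - 3 ≤ Gls64.ht K o x} ⊆ K.ψ.target := fun x hx =>
    K.dp_sub one_pos (ht_dp ho (by linarith [mem_ofPred.1 hx]))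
  rw [← Measure.restrict_restrict_of_subset m, Gr93.μ_nk h ht hK, Measure.restrict_restrict_of_subset m]

end Crest.Agent.X212.Gl50
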