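import Crest.Agent.X212.Grs81.A
import Crest.Agent.X212.Grs81.S
import Crest.Agent.X212.Ax1.GrpT
import Crest.Agent.X212.Ax1.Poi
import Crest.Agent.X212.Ax1.Slc
import Crest.Agent.X212.Ax1.Top
import Crest.Agent.X212.Ax1.GlI
import Crest.Agent.X212.Grs81.P
import Crest.Agent.X212.Cyl58.Bt
import Crest.Agent.X212.Gr93.D0
import Crest.Agent.X212.Cut71.Se
import Crest.Agent.X212.Cut71.Main
import Crest.Agent.X212.Gl50.Mt
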